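import Vale.Agent.P141.H74.CapBC
import Vale.Agent.P141.H736.FixBC
import Vale.Agent.P141.H419.WFamA

/-!
# P141, line (A), TI, the pair `(Bg, Cg)`: the second slot cut to its root

For `cut N S R c` (zero outside the root `S × R`, stopped at the time `N`): caps at all cells from
the caps inside the windows, the same row pieces, the same numbers, the same plane sums.
-/

set_option linter.unusedSectionVars false

namespace Vale.Agent.P141.H74.CutBC

open Finset Matrix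
open Vale.Agent.P075 (Ix)
open Vale.Agent.P141.PL (Pt iv ix mem_iv ix_ix cx)
open Vale.Agent.P141.PL.H103 Vale.Agent.P141.H103
open Vale.Agent.P141.H389 (TV)
open Vale.Agent.P141.H585.PairCh (dls)
open Vale.Agent.P141.H585.PairO (mh gp)
open Vale.Agent.P141.H419.PairB (gnV)
open Vale.Agent.P141.H419.WFamR
open Vale.Agent.P141.H912 (OwL wS)
open Vale.Agent.P141.H874 Vale.Agent.P141.H457
open Vale.Agent.P141.H170 (Win.cut Win.cut_in Win.cut_cell Win.cut_out Win.GW_congr)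
open Vale.Agent.P141.H736 (wE)
open Vale.Agent.P141.H581.TVCP (mB)
open Vale.Agent.P141.H784 (av)

noncomputable section

open scoped Classical

variable {κ : Type} [Fintype κ] [DecidableEq κ]
variable {N : ℕ} {S R : ℤ} {c : ℕ → ℤ → ℤ → κ → ℝ}

/-- point sums over the root -/
theorem cut_sum {k : ℕ} (hk : k ≤ N) (Φ : ℤ → ℤ → (κ → ℝ) → ℝ) :
    ∑ x ∈ iv N S, ∑ z ∈ iv N R, Φ x z (Win.cut N S R c k x z) =
      ∑ x ∈ iv N S, ∑ z ∈ iv N R, Φ x z (c k x z) :=
  sum_congr rfl fun x hx => sum_congr rfl fun z hz => by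
    rw [Win.cut_in hx hz, min_eq_left hk]

/-- (c) the row pieces -/
theorem cut_row {Pc : ℕ → ℤ → ℤ → Prop}
    (hPc : ∀ k < N, ∀ w m, ¬ Pc k w m → ∀ x ∈ iv k m, c (k + 1) x w = c k x w) :
    ∀ k < N, ∀ w m, ¬ Pc k w m → ∀ x ∈ iv k m,
      Win.cut N S R c (k + 1) x w = Win.cut N S R c k x w := by
  intro k hk w m h x hx
  have e := hPc k hk w m h x hx
  unfold H170.Win.cut
  rw [min_eq_left (show k + 1 ≤ N from hk), min_eq_left hk.le]
  split_ifs
  · exact e
  · rfl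

/-- rows of the cut family, inside the root -/
theorem rs_cut {k : ℕ} (hk : k ≤ N) (P : ℤ → ℤ → Prop) (j : ℕ) {x z : ℤ} (hx : x ∈ iv N S)
    (hz : z ∈ iv N R) : rs P j (Win.cut N S R c k) x z = rs P j (c k) x z := by
  unfold rs
  rw [Win.cut_in hx hz, min_eq_left hk]

/-! ### The numbers -/

section num

variable {be : ℝ} {T e d : ℕ → ℤ → ℤ → Matrix κ κ ℝ}

theorem Wn_cut {k : ℕ} (hk : k ≤ N) (a : ℕ) :
    Wn N R S be T (Win.cut N S R c k) a = Wn N R S be T (c k) a :=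
  cut_sum hk fun x w f => f ⬝ᵥ (be • (1 : Matrix κ κ ℝ) + T a x (ix a w)) *ᵥ f

theorem Dn_cut {k : ℕ} (hk : k ≤ N) (a : ℕ) :
    Dn N R S d (Win.cut N S R c k) a = Dn N R S d (c k) a :=
  cut_sum hk fun x w f => (d a x (ix (a + 1) w) *ᵥ f) ⬝ᵥ (d a x (ix (a + 1) w) *ᵥ f)

theorem En_cut {k : ℕ} (hk : k ≤ N) (a : ℕ) :
    En N R S e (Win.cut N S R c k) a = En N R S e (c k) a :=
  cut_sum hk fun x w f => f ⬝ᵥ e a x (ix (a + 1) w) *ᵥ f

theorem Wn_rs_cut {k : ℕ} (hk : k ≤ N) (P : ℤ → ℤ → Prop) (j a : ℕ) :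
    Wn N R S be T (rs P j (Win.cut N S R c k)) a = Wn N R S be T (rs P j (c k)) a :=
  sum_congr rfl fun x hx => sum_congr rfl fun z hz => by
    rw [rs_cut hk P j hx hz]

theorem wE_cut {k j : ℕ} (hk : k ≤ N) {x z : ℤ} (hx : x ∈ iv N S) (hz : z ∈ iv N R) :
    wE be T j (Win.cut N S R c k) x z = wE be T j (c k) x z := by
  unfold H736.wE
  rw [Win.cut_in hx hz, min_eq_left hk]

theorem wE_rs_cut {k j i : ℕ} (hk : k ≤ N) (P : ℤ → ℤ → Prop) {x z : ℤ} (hx : x ∈ iv N S)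
    (hz : z ∈ iv N R) :
    wE be T j (rs P i (Win.cut N S R c k)) x z = wE be T j (rs P i (c k)) x z := by
  unfold H736.wE
  rw [rs_cut hk P i hx hz]

theorem nmH_cut : nmH N R S be T (Win.cut N S R c) = nmH N R S be T c := by
  funext r
  exact Wn_cut (Nat.zero_le _) r

theorem nmD_cut : nmD N R S d (Win.cut N S R c) = nmD N R S d c := by
  funext r
  exact sum_congr rfl fun k hk => Dn_cut (by have := (mem_Ico.1 hk).2; omega) _

theorem nmE_cut : nmE N R S e (Win.cut N S R c) = nmE N R S e c := by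
  funext r
  exact sum_congr rfl fun k hk => En_cut (by have := (mem_Ico.1 hk).2; omega) _

theorem nmB_cut (Pc : ℕ → ℤ → ℤ → Prop) :
    nmB N R S be T Pc (Win.cut N S R c) = nmB N R S be T Pc c := by
  funext r
  exact sum_congr rfl fun k hk => Wn_rs_cut (by have := (mem_Ico.1 hk).2; omega) _ _ _

/-- the shifted path of the cut family is the cut of the shifted path -/
theorem c1_cut : c1 N (Win.cut N S R c) = Win.cut N S R (c1 N c) := by
  funext k x z
  unfold c1 H170.Win.cut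
  have e : min (min (k + 1) N) N = min (min k N + 1) N := by omega
  simp only [e]

end num

/-! ### Caps -/

section cap

variable {be : ℝ} {T : ℕ → ℤ → ℤ → Matrix κ κ ℝ}

/-- (a) caps at all cells -/
theorem cut_cap {C : ℝ} (hC : 0 ≤ C) {k a j : ℕ} (hk : k ≤ N) (ha : a ≤ N) (hj : j ≤ N)
    (cap : ∀ n m, m ∈ iv (N - k) S → n ∈ iv (N - a) R →
      (C • (1 : Matrix (Ix k × κ) (Ix k × κ) ℝ)
        - SD be T k a n m * CP (c j) k a n m * SD be T k a n m).PosSemidef) (n m : ℤ) :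
    (C • (1 : Matrix (Ix k × κ) (Ix k × κ) ℝ)
      - SD be T k a n m * CP (Win.cut N S R c j) k a n m * SD be T k a n m).PosSemidef := by
  by_cases hw : m ∈ iv (N - k) S ∧ n ∈ iv (N - a) R
  · rw [CapBC.CP_congr (f := c j) fun y hy w hw' => by
      rw [Win.cut_cell hk ha hw.1 hw.2 hy hw', min_eq_left hj]]
    exact cap n m hw.1 hw.2
  · rw [CapBC.CP_zero fun y hy w hw' => Win.cut_out hk ha hw hy hw', Matrix.mul_zero,
      Matrix.zero_mul, sub_zero]
    exact PosSemidef.one.smul hC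

end cap

/-! ### Plane sums -/

section plane

variable {be s : ℝ} {T : ℕ → ℤ → ℤ → Matrix κ κ ℝ}

theorem PG_cut {k a j : ℕ} (hk : k ≤ N) (ha : a ≤ N) (hj : j ≤ N) {n m : ℤ}
    (hm : m ∈ iv (N - k) S) (hn : n ∈ iv (N - a) R) :
    PG be s T (Win.cut N S R c j) k a n m = PG be s T (c j) k a n m := by
  unfold PG
  rw [CapBC.CP_congr (f := c j) fun y hy w hw' => by
    rw [Win.cut_cell hk ha hm hn hy hw', min_eq_left hj]]

/-- (b) the window does not see the cut -/
theorem GW_win_cut (R₁ : ℤ) (cc : ℕ → ℤ) (P : ∀ k, ℕ → ℤ → ℤ → Matrix (Ix k × κ) (Ix k × κ) ℝ)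
    (r : ∀ k, Matrix (Ix (k + 1) × κ) (Ix (k + 1) × κ) ℝ) :
    ∑ k ∈ Ico 0 N, GW N R₁ S R (k + 1) (cc (k + 1)) (gnV (ι := fun k => Ix k × κ) P
      (fun k a n m => PG be s T (Win.cut N S R c k) k a n m) r k) =
    ∑ k ∈ Ico 0 N, GW N R₁ S R (k + 1) (cc (k + 1)) (gnV (ι := fun k => Ix k × κ) P
      (fun k a n m => PG be s T (c k) k a n m) r k) := by
  refine sum_congr rfl fun k hk => Win.GW_congr fun m hm n _ n' hn' => ?_
  have h := (mem_Ico.1 hk).2
  unfold gnV
  beta_reduce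
  rw [PG_cut h h h hm hn']

end plane

end

end Vale.Agent.P141.H74.CutBC
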