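import Vale.Agent.P141.H883.FCap
import Vale.Agent.P141.H457.DictBC
import Vale.Agent.P141.H204.CapO
import Vale.Agent.P141.H170.Win
import Vale.Agent.P141.H652.ThetaS

/-!
# P141, line (A), increasing part: the cap of the third slot at the hub `x₁`

* `CM_gram'` : the hub `x₃` Gram matrix is the transposed product of `H457.CM`;
* `capX_of` : a cap of the weighted hub `x₃` Gram matrix `W3` on a rectangle is a cap of
  `SD * CP * SD` on the same rectangle;
* `capX` : class data; `FCapX`, `fCapX` : the same under the quantifiers;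
* `cut_capX` : every pair of cells, family cut to the root.
-/

namespace Vale.Agent.P141.H74.CapBC

open Finset Matrix
open Vale.Agent.P075 (Ix val)
open Vale.Agent.P141.PL (Pt iv ix mem_iv ix_ix cx)
open Vale.Agent.P141.PL.H315 (Tri)
open Vale.Agent.P141.H48 (US ES BSl)
open Vale.Agent.P141.H103 (QW XR)
open Vale.Agent.P141.H874 (CP BM DB)
open Vale.Agent.P141.H457 (CM CM_mul SD CP_conj)
open Vale.Agent.P141.H401 (StQ cA cb mC)
open Vale.Agent.P141.H677 (KT GT rt cP tr_T)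
open Vale.Agent.P141.H652 (Th Th_psd)
open Vale.Agent.P141.H505.Sk1 (W3)
open Vale.Agent.P141.H408
open Vale.Agent.P141.H808 (cS)

noncomputable section

open scoped Classical

set_option linter.unusedVariables false
set_option linter.unusedSectionVars false

section gram

variable {κ : Type} [Fintype κ] [DecidableEq κ]

theorem CM_gram' (f : ℤ → ℤ → κ → ℝ) (k a : ℕ) (n m : ℤ) :
    (CM f k a n m)ᵀ * CM f k a n m = QW k a f (fun _ => 1) m n := by
  ext i j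
  have h0 : (0 : ℝ) ≤ 2 ^ k * 2 ^ a := by positivity
  have e : (√((2 : ℝ) ^ k * 2 ^ a))⁻¹ * (√((2 : ℝ) ^ k * 2 ^ a))⁻¹
      = ((2 : ℝ) ^ k * 2 ^ a)⁻¹ := by
    rw [← mul_inv, Real.mul_self_sqrt h0]
  simp only [Matrix.mul_apply, transpose_apply, CM, H103.QW]
  rw [Fintype.sum_prod_type, PL.H588.sum_iv, mul_sum]
  refine sum_congr rfl fun a' _ => ?_
  rw [one_mulVec, dotProduct, mul_sum]
  refine sum_congr rfl fun l _ => ?_
  rw [← e]
  ring

/-- **A cap of the columns is a cap of the rows.** -/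
theorem cap_of_QW {C : ℝ} (hC : 0 < C) {f : ℤ → ℤ → κ → ℝ} {k a : ℕ} {n m : ℤ}
    (h : (C • (1 : Matrix (Ix a) (Ix a) ℝ) - QW k a f (fun _ => 1) m n).PosSemidef) :
    (C • (1 : Matrix (Ix k × κ) (Ix k × κ) ℝ) - CP f k a n m).PosSemidef := by
  have h1 : (1 - C⁻¹ • ((CM f k a n m)ᵀ * CM f k a n m)).PosSemidef := by
    rw [CM_gram']
    have h2 := h.smul (inv_nonneg.2 hC.le)
    rwa [smul_sub, smul_smul, inv_mul_cancel₀ hC.ne', one_smul] at h2
  have h2 := (H204.cap_swap (CM f k a n m) (inv_nonneg.2 hC.le) h1).smul hC.le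
  rw [CM_mul, smul_sub, smul_smul, mul_inv_cancel₀ hC.ne', one_smul] at h2
  exact h2

/-- the form of a matrix through its positive square root -/
theorem form_sq' {W : Matrix κ κ ℝ} (hW : W.PosDef) (a b : κ → ℝ) :
    (H408.sq W *ᵥ a) ⬝ᵥ (H408.sq W *ᵥ b) = a ⬝ᵥ W *ᵥ b := by
  obtain ⟨h1, h2⟩ := sq_spec hW
  have h3 : (H408.sq W)ᵀ = H408.sq W := h1.isHermitian
  conv_rhs => rw [← h2, ← mulVec_mulVec]
  rw [dotProduct_mulVec a, ← mulVec_transpose, h3]

variable {be : ℝ} {T : ℕ → ℤ → ℤ → Matrix κ κ ℝ}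

/-- the weighted Gram matrix of the rows is the Gram matrix of the weighted slot -/
theorem SD_CP (hb : 0 < be) (hT : ∀ a x m, (T a x m).PosSemidef) (f : ℤ → ℤ → κ → ℝ) (k a : ℕ)
    (n m : ℤ) : SD be T k a n m * CP f k a n m * SD be T k a n m =
      CP (fun x w => H408.sq (be • (1 : Matrix κ κ ℝ) + T a x n) *ᵥ f x w) k a n m := by
  have hs : (fun x => (H408.sq (be • (1 : Matrix κ κ ℝ) + T a x n))ᵀ) =
      fun x => H408.sq (be • (1 : Matrix κ κ ℝ) + T a x n) := by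
    funext x
    exact (H457.sqT_spec hb hT a x n).1.isHermitian
  have e := CP_conj (fun x => H408.sq (be • (1 : Matrix κ κ ℝ) + T a x n)) f k a n m
  rw [hs] at e
  exact e

/-- **A cap of the weighted Gram matrix of the columns is a cap of the rows.** -/
theorem capX_of {C : ℝ} (hC : 0 < C) (hb : 0 < be) (hT : ∀ a x m, (T a x m).PosSemidef)
    {f : ℤ → ℤ → κ → ℝ} {k a : ℕ} {n m : ℤ}
    (h : (C • (1 : Matrix (Ix a) (Ix a) ℝ) -
      W3 f (fun x a m => be • (1 : Matrix κ κ ℝ) + T a x m) a k m n).PosSemidef) :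
    (C • (1 : Matrix (Ix k × κ) (Ix k × κ) ℝ) -
      SD be T k a n m * CP f k a n m * SD be T k a n m).PosSemidef := by
  rw [SD_CP hb hT]
  refine cap_of_QW hC ?_
  have e : QW k a (fun x w => H408.sq (be • (1 : Matrix κ κ ℝ) + T a x n) *ᵥ f x w)
      (fun _ => (1 : Matrix κ κ ℝ)) m n =
      W3 f (fun x a m => be • (1 : Matrix κ κ ℝ) + T a x m) a k m n := by
    ext i j
    unfold H505.Sk1.W3
    simp only [H103.QW]
    congr 1
    refine sum_congr rfl fun x _ => ?_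
    rw [one_mulVec]
    exact form_sq' ((PosDef.one.smul hb).add_posSemidef (hT a x n)) _ _
  rw [e]
  exact h

theorem CP_zero {f : ℤ → ℤ → κ → ℝ} {k a : ℕ} {n m : ℤ}
    (h : ∀ x ∈ iv k m, ∀ w ∈ iv a n, f x w = 0) : CP f k a n m = 0 := by
  ext p q
  simp only [CP, BM, XR, Matrix.smul_apply, Matrix.sum_apply, vecMulVec_apply, smul_eq_mul,
    Matrix.zero_apply]
  refine mul_eq_zero_of_right _ (mul_eq_zero_of_right _ (sum_eq_zero fun w hw => ?_))
  rw [h _ (H103.mem_iv_val k m p.1) w hw]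
  simp

theorem CP_congr {f f' : ℤ → ℤ → κ → ℝ} {k a : ℕ} {n m : ℤ}
    (h : ∀ x ∈ iv k m, ∀ w ∈ iv a n, f' x w = f x w) : CP f' k a n m = CP f k a n m := by
  ext p q
  simp only [CP, BM, XR, Matrix.smul_apply, Matrix.sum_apply, vecMulVec_apply, smul_eq_mul]
  congr 2
  refine sum_congr rfl fun w hw => ?_
  rw [h _ (H103.mem_iv_val k m p.1) w hw, h _ (H103.mem_iv_val k m q.1) w hw]

end gram

section one

variable {ι : Type} [Fintype ι] [DecidableEq ι]

/-- the letters of the weight of the rows, hub `x₁` -/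
def thX (p : H401.Num) (s r : ℝ) (o : ℤ) (K : ℕ) (x : Pt) (u : ℤ → ℤ → ι → ℝ) (x0 : ℤ) :
    ℕ → ℤ → ℤ → Matrix ι ι ℝ := fun a y m =>
  Th (p.lam s r) K (cx K x).2.1 (KT (p.lam s r) u y) (o - 2) x0 y a m

/-- **The cap of the third slot at the hub `x₁`, class data.** -/
theorem capX {p : H401.Num} {n K : ℕ} {ez s r P cP : ℝ} {o : ℤ} {F2 : ℕ → Pt → ℝ}
    {Q2 : ℕ → Pt → Prop} {x : Pt} {U : Tri} {g : ℤ → ℤ → ℝ} {u v : ℤ → ℤ → ι → ℝ}
    (ht : 0 < p.t) (ht1 : p.t ≤ 1) (hd1 : p.d ≤ 1) (he0 : 0 ≤ p.e0) (hs : 0 < s) (hr : 1 ≤ r)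
    (hez : 0 < ez) (hK : K ≤ n) (hcls : H305.Cls K x s r P U g u v) (q2 : BSl n ez cP F2 Q2)
    (x0 : ℤ) {k a j : ℕ} {n' m : ℤ} (hk : k ≤ K) (ha : a ≤ K) (hj : j ≤ min k a + 1)
    (hn : n' ∈ iv (K - a) (cx K x).2.2) (hm : m ∈ iv (K - k) (cx K x).1) :
    (cCI p s r ^ 2 • (1 : Matrix (Ix k × ι) (Ix k × ι) ℝ) -
      SD (beI p r) (thX p s r o K x u x0) k a n' m * CP (cS p ez U K v F2 x0 j) k a n' m *
        SD (beI p r) (thX p s r o K x u x0) k a n' m).PosSemidef := by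
  have hy : 0 < p.t / r := div_pos ht (by linarith)
  have hy1 : p.t / r ≤ 1 := (div_le_self ht.le hr).trans ht1
  have hbe : 0 < beI p r := Real.rpow_pos_of_pos hy _
  have hbe1 : H408.beI p r ≤ 1 := Real.rpow_le_one hy.le hy1 (by
    show 0 ≤ p.e0 / 2
    linarith)
  have hl : (0 : ℝ) < p.lam s r := H401.Num.lam_pos (p := p) ht hs hr
  have hc : 0 < cCI p s r ^ 2 := by
    have h0 := H482.LCap.capC_num' (p := p) ht ht1 hd1 hs hr hez
    refine lt_of_lt_of_le ?_ h0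
    have h1 : (0 : ℝ) < (√ez)⁻¹ ^ 2 := by positivity
    refine mul_pos h1 (mul_pos (by norm_num) ?_)
    unfold H215.capV
    have h2 : (0 : ℝ) < p.Lm := Real.rpow_pos_of_pos ht _
    positivity
  refine capX_of hc hbe (fun a y m => Th_psd (tr_T hl K u y) _ _ _ _ _) ?_
  exact H883.cap_one (p := p) (θ := 3) (c := (√ez)⁻¹) ht hs hez hK hcls q2 (by norm_num)
    (W := H808.thS p s r o K x u x0)
    (fun x1 k m => H482.LCap.Wg_le hbe1 (fun y => tr_T hl K u y) (o - 2) x0 x1 k m)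
    (H482.LCap.capC_num' (p := p) ht ht1 hd1 hs hr hez) x0 a k m n' ha hk j
    (hj.trans_eq (by rw [min_comm])) hm hn

/-- the same for every pair of cells, family cut to the root -/
theorem cut_capX {p : H401.Num} {n K : ℕ} {ez s r P cP : ℝ} {o : ℤ} {F2 : ℕ → Pt → ℝ}
    {Q2 : ℕ → Pt → Prop} {x : Pt} {U : Tri} {g : ℤ → ℤ → ℝ} {u v : ℤ → ℤ → ι → ℝ}
    (ht : 0 < p.t) (ht1 : p.t ≤ 1) (hd1 : p.d ≤ 1) (he0 : 0 ≤ p.e0) (hs : 0 < s) (hr : 1 ≤ r)
    (hez : 0 < ez) (hK : K ≤ n) (hcls : H305.Cls K x s r P U g u v) (q2 : BSl n ez cP F2 Q2)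
    (x0 : ℤ) {k a j : ℕ} (hk : k ≤ K) (ha : a ≤ K) (hj : j ≤ min k a + 1) (n' m : ℤ) :
    (cCI p s r ^ 2 • (1 : Matrix (Ix k × ι) (Ix k × ι) ℝ) -
      SD (beI p r) (thX p s r o K x u x0) k a n' m *
        CP (H170.Win.cut K (cx K x).1 (cx K x).2.2 (cS p ez U K v F2 x0) j) k a n' m *
        SD (beI p r) (thX p s r o K x u x0) k a n' m).PosSemidef := by
  by_cases hw : m ∈ iv (K - k) (cx K x).1 ∧ n' ∈ iv (K - a) (cx K x).2.2
  · rw [CP_congr (f := cS p ez U K v F2 x0 (min j K)) fun y hy w hw' =>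
      H170.Win.cut_cell hk ha hw.1 hw.2 hy hw']
    exact capX ht ht1 hd1 he0 hs hr hez hK hcls q2 x0 hk ha ((min_le_left _ _).trans hj) hw.2 hw.1
  · rw [CP_zero fun y hy w hw' => H170.Win.cut_out hk ha hw hy hw', Matrix.mul_zero,
      Matrix.zero_mul, sub_zero]
    exact PosSemidef.one.smul (sq_nonneg _)

end one

/-- **The cap of the third slot at the hub `x₁`**, every pair of cells. -/
def FCapX : Prop := PairQ fun ι _ _ p _ ez _ F2 _ o K x s r U _ u v _ _ _ _ =>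
  ∀ (x0 : ℤ) (k a j : ℕ), k ≤ K → a ≤ K → j ≤ min k a + 1 → ∀ n m : ℤ,
    (cCI p s r ^ 2 • (1 : Matrix (Ix k × ι) (Ix k × ι) ℝ) -
      SD (beI p r) (thX p s r o K x u x0) k a n m *
        CP (H170.Win.cut K (cx K x).1 (cx K x).2.2 (cS p ez U K v F2 x0) j) k a n m *
        SD (beI p r) (thX p s r o K x u x0) k a n m).PosSemidef

theorem fCapX : FCapX := by
  intro a _ _
  refine ⟨1, one_pos, fun e0 he0 _ => ⟨1, one_pos, fun k8 _ _ => ⟨1, one_pos, fun k3 _ _ => ?_⟩⟩⟩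
  intro δ _
  refine ⟨1, 1, one_pos, one_pos, fun c _ _ d hd hd1 Kt e cP L _ _ _ _ => ⟨1, zero_le_one, ?_⟩⟩
  intro t ht ht1 n ez F1 F2 F3 _ _ _ o _ K hK x ι _ _ s r U g' u v hs hr hcls Q1 Q2 Q3 _ q2 _ hez
  intro x0 k i j hk hi hj n' m
  exact cut_capX (p := ⟨a, e0, k8, k3, c, d, Kt, e, cP, L, 1, t⟩) ht ht1 hd1 he0.le hs hr hez hK
    hcls.toCls q2 x0 hk hi hj n' m

end

end Vale.Agent.P141.H74.CapBC
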