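import Vale.Agent.P141.H74.HSt
import Vale.Agent.P141.H508.OwnAB
import Vale.Agent.P141.H64.HP3

/-!
# P141, line (A): the leaf `HSt3`, price of the high part of `b`, second cut

* `natA`, `lowA` : the families `mA`, `cA` with the natural number `t ^ (2 - 2 c - 2 d) s^(3/2)`;
* `natB` : the same for `mb`;
* `hst3 : HSt3`.
-/

namespace Vale.Agent.P141.H74

open Finset Matrix
open Vale.Agent.P141.PL (Pt iv ix cx)
open Vale.Agent.P141.PL.H315 (Tri)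
open Vale.Agent.P141.H48 (US ES BSl Qth)
open Vale.Agent.P141.H677
open Vale.Agent.P141.H401
open Vale.Agent.P141.H205 (FamK)
open Vale.Agent.P141.H971 (Fam0)

noncomputable section

open scoped Classical

/-- the natural number in the form of `H593.hp_price` -/
theorem nat_eq {c d Kt t s r k cc : ℝ} (ht : 0 < t) (hs : 0 < s) (K : ℕ) (e cP : ℝ) :
    cc * (t ^ (-d)) ^ 2 * (cP + 2) * ((Kt * t ^ (1 - c)) ^ 2 * e) * (s * √s) * 8 ^ K =
      (cc * (cP + 2) * (Kt ^ 2 * e)) *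
        (t ^ (2 + -(2 * c + 2 * d)) * s ^ (3 / 2 : ℝ) * r ^ (-(0 : ℝ)) * 8 ^ K) + k * 0 := by
  rw [s_sqrt hs, pow_sq ht, neg_zero, Real.rpow_zero]
  have h1 : t ^ (2 + -(2 * c + 2 * d)) = t ^ (-(2 * d)) * (t ^ (1 - c)) ^ 2 := by
    rw [← Real.rpow_natCast (t ^ (1 - c)), ← Real.rpow_mul ht.le, ← Real.rpow_add ht]
    congr 1
    push_cast
    ring
  rw [h1]
  ring

section cls

variable {ι : Type} [Fintype ι] [DecidableEq ι] {a e0 k8 k3 c d Kt e cP L CD t : ℝ} {n K : ℕ}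
  {x : Pt} {s r P : ℝ} {U : Tri} {g : ℤ → ℤ → ℝ} {u v : ℤ → ℤ → ι → ℝ} {F : ℕ → Pt → ℝ}
  {Q : ℕ → Pt → Prop}

omit [DecidableEq ι] in
/-- **The family `mA`**, natural number. -/
theorem natA (ht : 0 < t) (ht1 : t ≤ 1) (hd : 0 ≤ d) (hcP : 0 ≤ cP)
    (hF : US n (Kt * t ^ (1 - c)) e cP F) (hQ : BSl n e cP F Q) (hK : K ≤ n) (hs : 0 < s)
    (hc : H305.Cls K x s r P U g u v) (t0 : ℤ) :
    Fam0 K (cx K x).2.2 (cx K x).2.1 (iv K t0)
      (fun x0 k n m => qA ⟨a, e0, k8, k3, c, d, Kt, e, cP, L, CD, t⟩ U K Q k (ix k x0) n m)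
      (mA ⟨a, e0, k8, k3, c, d, Kt, e, cP, L, CD, t⟩ U K g F) (cP + 2)
      ((1920000 * (cP + 2) * (Kt ^ 2 * e)) *
        (t ^ (2 + -(2 * c + 2 * d)) * s ^ (3 / 2 : ℝ) * r ^ (-(0 : ℝ)) * 8 ^ K))
      ((4 * (cP + 2) * e) * (t ^ (-d) * s * 8 ^ K)) := by
  have hΛ : 1 ≤ t ^ (-d) := Real.one_le_rpow_of_pos_of_le_one_of_nonpos ht ht1 (by linarith)
  refine fam0_mono (H508.fam0_Cls hΛ hcP hF hQ hK hc t0) le_rfl (le_of_eq ?_) (le_of_eq ?_)
  · rw [nat_eq (r := r) (k := 0) ht hs]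
    ring
  · ring

omit [DecidableEq ι] in
/-- **The family `cA`**, natural number. -/
theorem lowA (ht : 0 < t) (ht1 : t ≤ 1) (hd : 0 ≤ d) (hcP : 0 ≤ cP)
    (hF : US n (Kt * t ^ (1 - c)) e cP F) (hQ : BSl n e cP F Q) (hK : K ≤ n) (hs : 0 < s)
    (hc : H305.Cls K x s r P U g u v) (t0 : ℤ) :
    Fam0 K (cx K x).2.2 (cx K x).2.1 (iv K t0)
      (fun x0 k n m => qA ⟨a, e0, k8, k3, c, d, Kt, e, cP, L, CD, t⟩ U K Q k (ix k x0) n m)
      (cA ⟨a, e0, k8, k3, c, d, Kt, e, cP, L, CD, t⟩ s r U K g F Q) (cP + 2)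
      ((1920000 * (cP + 2) * (Kt ^ 2 * e)) *
        (t ^ (2 + -(2 * c + 2 * d)) * s ^ (3 / 2 : ℝ) * r ^ (-(0 : ℝ)) * 8 ^ K))
      ((4 * (cP + 2) * e) * (t ^ (-d) * s * 8 ^ K)) := by
  have h := natA (a := a) (e0 := e0) (k8 := k8) (k3 := k3) (L := L) (CD := CD) ht ht1 hd hcP hF hQ
    hK hs hc t0
  exact {
    path := fun i _ => H205.low1_path K _ _
    zero := fun i _ => H205.low1_zero
    pack := h.pack
    own := (sum_le_sum fun i _ => H205.own4_low_le K _ _).trans h.own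
    pow := (sum_le_sum fun i _ => H205.pwr_low_le K _ _).trans h.pow }

/-- **The family `mb`**, natural number. -/
theorem natB (ht : 0 < t) (ht1 : t ≤ 1) (hd : 0 ≤ d) (hcP : 0 ≤ cP)
    (hF : US n (Kt * t ^ (1 - c)) e cP F) (hQ : BSl n e cP F Q) (hK : K ≤ n) (hs : 0 < s)
    (hc : H305.Cls K x s r P U g u v) (t0 : ℤ) :
    FamK K (cx K x).1 (cx K x).2.1 (iv K t0)
      (fun x0 k n m => qB ⟨a, e0, k8, k3, c, d, Kt, e, cP, L, CD, t⟩ U K Q k (ix k x0) n m)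
      (mb ⟨a, e0, k8, k3, c, d, Kt, e, cP, L, CD, t⟩ U K u F) (cP + 2)
      ((5760000 * (cP + 2) * (Kt ^ 2 * e)) *
        (t ^ (2 + -(2 * c + 2 * d)) * s ^ (3 / 2 : ℝ) * r ^ (-(0 : ℝ)) * 8 ^ K))
      ((4 * (cP + 2) * e) * (t ^ (-d) * s * 8 ^ K)) := by
  have hΛ : 1 ≤ t ^ (-d) := Real.one_le_rpow_of_pos_of_le_one_of_nonpos ht ht1 (by linarith)
  refine famK_mono (H508.famK_bCls hΛ hcP hF hQ hK hc t0) le_rfl (le_of_eq ?_) (le_of_eq ?_)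
  · rw [nat_eq (r := r) (k := 0) ht hs]
    ring
  · ring

end cls

/-- **The price of the high part of `b`, second cut.** -/
theorem hst3 : HSt3 := by
  intro a ha ha1
  refine ⟨a / 10, by positivity, fun e0 he0 he0' => ?_⟩
  refine ⟨e0 / 100, by positivity, fun k8 hk8 hk8' => ?_⟩
  refine ⟨e0 / 100, by positivity, fun k3 hk3 hk3' => ?_⟩
  refine ⟨e0 / 100, e0 / 1000, e0 / 1000, e0 / 100, by positivity, by positivity, by positivity,
    by positivity, fun c hc hcc d hd hdd Kt e cP L hKt he hcP hL => ?_⟩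
  have hc' : c ≤ e0 / 1000 := hcc
  have hd' : d ≤ e0 / 1000 := hdd
  have he01 : e0 ≤ 1 := by linarith
  obtain ⟨CB, hCB, HB⟩ := H64.famK_hb3 ha1 he0 he0' (by linarith : c ≤ e0 / 100) hd
    (by linarith : d ≤ e0 / 100) hKt he hcP hL
  obtain ⟨C, hC, H⟩ := price (pA := -(2 * c + 2 * d)) (pB := e0 / 4 - 4 * k3 - 4 * k8)
    (qA := 0) (qB := e0 / 4 - 4 * k3 - 4 * k8) (wA := d) (d := d) (θ := e0 / 1000)
    (gam := e0 / 100) (del := e0 / 100) (by positivity) le_rfl hd.le (by linarith)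
    (by nlinarith) (by nlinarith) (CA := 1920000 * (cP + 2) * (Kt ^ 2 * e)) (CB := CB)
    (cA := 4 * (cP + 2) * e) (by positivity) hCB (by positivity) hcP
  refine ⟨1, le_rfl, C, hC, ?_⟩
  intro t ht ht1 n ez F1 F2 F3 f1 f3 f2 o ho K hKn x ι _ _ s r U g u v hs hr hcls Q1 Q2 Q3 q1 q2 q3
  have hDB : 0 < 4 * t ^ (-d) * (cP + 2) * e * s * 8 ^ K := by positivity
  exact H t ht ht1 n ez F2 f2 o ho K hKn x ι s r _ U g u v hs hr hcls.toCls _ _ _ _ _ _ hDB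
    (fun t0 => lowA ht ht1 hd.le hcP f1 q1 hKn hs hcls.toCls t0)
    (fun t0 => HB k8 k3 1 t ht ht1 n F1 F3 Q1 Q3 f1 q1 f3 q3 K hKn x ι s r _ U g u v hs hr hcls t0)

end

end Vale.Agent.P141.H74
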