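import Vale.Agent.P141.H74.HSt3
import Vale.Agent.P141.H205.HNum2

/-!
# P141, line (A): the leaves `HSt1`, `HSt2`, prices of the high parts of `A` and of `b`

* `gH_le`, `gD_le` : the numbers of the high parts as monomials,
  `t ^ (2 + 2 k3 - 8 c - 3 d) s^(3/2) r^(-2 k3)`;
* `hst1 : HSt1`, `hst2 : HSt2`.
-/

namespace Vale.Agent.P141.H74

open Finset Matrix
open Vale.Agent.P141.PL (Pt iv ix cx)
open Vale.Agent.P141.PL.H315 (Tri)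
open Vale.Agent.P141.H48 (US ES BSl Qth)
open Vale.Agent.P141.H677
open Vale.Agent.P141.H401
open Vale.Agent.P141.H205 (FamK gH gD bs mW famA_hi famB_hi)
open Vale.Agent.P141.H971 (Fam0)

noncomputable section

open scoped Classical

theorem pwn {x : ℝ} (hx : 0 < x) (a : ℝ) (n : ℕ) : (x ^ a) ^ n = x ^ (a * n) := by
  rw [← Real.rpow_natCast, ← Real.rpow_mul hx.le]

/-- the sixth power of the level -/
theorem th_six {p : H401.Num} {s r : ℝ} (ht : 0 < p.t) (hs : 0 < s) (hr : 1 ≤ r) :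
    p.th s r ^ 6 = p.t ^ (6 - 6 * p.k3) * s ^ (3 / 2 : ℝ) * r ^ (6 * p.k3) := by
  have hr0 : 0 < r := by linarith
  have h1 : p.th s r ^ 6 = (p.th s r ^ 2) ^ 3 := by ring
  have e1 : (2 - 2 * p.k3) * ((3 : ℕ) : ℝ) = 6 - 6 * p.k3 := by
    push_cast
    ring
  have e2 : (1 / 2 : ℝ) * ((3 : ℕ) : ℝ) = 3 / 2 := by norm_num
  have e3 : (2 * p.k3) * ((3 : ℕ) : ℝ) = 6 * p.k3 := by
    push_cast
    ring
  rw [h1, H401.Num.th_sq ht hs hr, mul_pow, mul_pow, pwn ht, pwn hr0, Real.sqrt_eq_rpow, pwn hs,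
    e1, e2, e3]

/-- **The own number of the high parts.** -/
theorem gH_le {p : H401.Num} {s r Kt e cP : ℝ} (ht : 0 < p.t) (ht1 : p.t ≤ 1) (hs : 0 < s)
    (hr : 1 ≤ r) (he : 0 ≤ e) (hcP : 0 ≤ cP) (hk : 0 ≤ p.k3) (hc : 0 ≤ p.c) (hd : 0 ≤ p.d)
    (K : ℕ) :
    gH p s (Kt * p.t ^ (1 - p.c)) e cP (p.th s r) K ≤
      ((cP + 2) * (8 * (24 ^ 8 * Kt ^ 8 * 64 * e + 12 ^ 4 * Kt ^ 4 * 16 * e))) *
        (p.t ^ (2 + (2 * p.k3 - 8 * p.c - 3 * p.d)) * s ^ (3 / 2 : ℝ) * r ^ (-(2 * p.k3)) *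
          8 ^ K) := by
  have hr0 : 0 < r := by linarith
  have hth : 0 < p.th s r := H401.Num.th_pos ht hs hr
  set M : ℝ := p.t ^ (2 + (2 * p.k3 - 8 * p.c - 3 * p.d)) * s ^ (3 / 2 : ℝ) *
    r ^ (-(2 * p.k3)) with hM
  have hM0 : 0 < M := by positivity
  have hs3 : (s : ℝ) ^ 3 = s ^ (3 / 2 : ℝ) * s ^ (3 / 2 : ℝ) := by
    rw [← Real.rpow_add hs, ← Real.rpow_natCast]
    norm_num
  have hs2 : (s : ℝ) ^ 2 = s ^ (3 / 2 : ℝ) * √s := by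
    rw [Real.sqrt_eq_rpow, ← Real.rpow_add hs, ← Real.rpow_natCast]
    norm_num
  -- first term
  have h1 : (p.t ^ (1 - p.c)) ^ 8 * (p.t ^ (-p.d)) ^ 3 * s ^ 3 / p.th s r ^ 6 ≤ M := by
    rw [div_le_iff₀ (by positivity), th_six ht hs hr, hs3]
    have a1 : (p.t ^ (1 - p.c)) ^ 8 * (p.t ^ (-p.d)) ^ 3 =
        p.t ^ (2 + (6 * p.k3 - 8 * p.c - 3 * p.d)) * p.t ^ (6 - 6 * p.k3) := by
      rw [pwn ht, pwn ht, ← Real.rpow_add ht, ← Real.rpow_add ht]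
      congr 1
      push_cast
      ring
    have a2 : p.t ^ (2 + (6 * p.k3 - 8 * p.c - 3 * p.d)) ≤
        p.t ^ (2 + (2 * p.k3 - 8 * p.c - 3 * p.d)) :=
      Real.rpow_le_rpow_of_exponent_ge ht ht1 (by linarith)
    have a3 : 1 ≤ r ^ (-(2 * p.k3)) * r ^ (6 * p.k3) := by
      rw [← Real.rpow_add hr0]
      exact Real.one_le_rpow hr (by linarith)
    rw [a1]
    calc p.t ^ (2 + (6 * p.k3 - 8 * p.c - 3 * p.d)) * p.t ^ (6 - 6 * p.k3) *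
          (s ^ (3 / 2 : ℝ) * s ^ (3 / 2 : ℝ))
        ≤ p.t ^ (2 + (2 * p.k3 - 8 * p.c - 3 * p.d)) * p.t ^ (6 - 6 * p.k3) *
          (s ^ (3 / 2 : ℝ) * s ^ (3 / 2 : ℝ)) * 1 := by
          rw [mul_one]
          gcongr
      _ ≤ p.t ^ (2 + (2 * p.k3 - 8 * p.c - 3 * p.d)) * p.t ^ (6 - 6 * p.k3) *
          (s ^ (3 / 2 : ℝ) * s ^ (3 / 2 : ℝ)) * (r ^ (-(2 * p.k3)) * r ^ (6 * p.k3)) := by
          gcongr
      _ = M * (p.t ^ (6 - 6 * p.k3) * s ^ (3 / 2 : ℝ) * r ^ (6 * p.k3)) := by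
          rw [hM]
          ring
  -- second term
  have h2 : (p.t ^ (1 - p.c)) ^ 4 * (p.t ^ (-p.d)) ^ 2 * s ^ 2 / p.th s r ^ 2 ≤ M := by
    rw [div_le_iff₀ (by positivity), H401.Num.th_sq ht hs hr, hs2]
    have a1 : (p.t ^ (1 - p.c)) ^ 4 * (p.t ^ (-p.d)) ^ 2 =
        p.t ^ (2 + (2 * p.k3 - 4 * p.c - 2 * p.d)) * p.t ^ (2 - 2 * p.k3) := by
      rw [pwn ht, pwn ht, ← Real.rpow_add ht, ← Real.rpow_add ht]
      congr 1
      push_cast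
      ring
    have a2 : p.t ^ (2 + (2 * p.k3 - 4 * p.c - 2 * p.d)) ≤
        p.t ^ (2 + (2 * p.k3 - 8 * p.c - 3 * p.d)) :=
      Real.rpow_le_rpow_of_exponent_ge ht ht1 (by linarith)
    have a3 : r ^ (-(2 * p.k3)) * r ^ (2 * p.k3) = 1 := by
      rw [← Real.rpow_add hr0, neg_add_cancel, Real.rpow_zero]
    rw [a1]
    calc p.t ^ (2 + (2 * p.k3 - 4 * p.c - 2 * p.d)) * p.t ^ (2 - 2 * p.k3) *
          (s ^ (3 / 2 : ℝ) * √s)
        ≤ p.t ^ (2 + (2 * p.k3 - 8 * p.c - 3 * p.d)) * p.t ^ (2 - 2 * p.k3) *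
          (s ^ (3 / 2 : ℝ) * √s) := by gcongr
      _ = p.t ^ (2 + (2 * p.k3 - 8 * p.c - 3 * p.d)) * p.t ^ (2 - 2 * p.k3) *
          (s ^ (3 / 2 : ℝ) * √s) * (r ^ (-(2 * p.k3)) * r ^ (2 * p.k3)) := by rw [a3, mul_one]
      _ = M * (p.t ^ (2 - 2 * p.k3) * √s * r ^ (2 * p.k3)) := by
          rw [hM]
          ring
  have h3 : gH p s (Kt * p.t ^ (1 - p.c)) e cP (p.th s r) K =
      (cP + 2) * (8 * (24 ^ 8 * Kt ^ 8 * 64 * e *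
        ((p.t ^ (1 - p.c)) ^ 8 * (p.t ^ (-p.d)) ^ 3 * s ^ 3 / p.th s r ^ 6) +
        12 ^ 4 * Kt ^ 4 * 16 * e *
        ((p.t ^ (1 - p.c)) ^ 4 * (p.t ^ (-p.d)) ^ 2 * s ^ 2 / p.th s r ^ 2))) * 8 ^ K := by
    unfold gH bs mW H401.Num.Lm
    ring
  rw [h3]
  have h4 : (24 ^ 8 * Kt ^ 8 * 64 * e *
        ((p.t ^ (1 - p.c)) ^ 8 * (p.t ^ (-p.d)) ^ 3 * s ^ 3 / p.th s r ^ 6) +
        12 ^ 4 * Kt ^ 4 * 16 * e *
        ((p.t ^ (1 - p.c)) ^ 4 * (p.t ^ (-p.d)) ^ 2 * s ^ 2 / p.th s r ^ 2)) ≤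
      (24 ^ 8 * Kt ^ 8 * 64 * e + 12 ^ 4 * Kt ^ 4 * 16 * e) * M := by
    have b1 : 0 ≤ 24 ^ 8 * Kt ^ 8 * 64 * e := by positivity
    have b2 : 0 ≤ 12 ^ 4 * Kt ^ 4 * 16 * e := by positivity
    have c1 := mul_le_mul_of_nonneg_left h1 b1
    have c2 := mul_le_mul_of_nonneg_left h2 b2
    linarith
  have h5 : (0 : ℝ) ≤ (cP + 2) * 8 * 8 ^ K := by positivity
  have h6 := mul_le_mul_of_nonneg_left h4 h5
  refine le_trans (le_of_eq ?_) (h6.trans (le_of_eq ?_))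
  · ring
  · ring

/-- the square energy -/
theorem gD_le {p : H401.Num} {s e cP : ℝ} (K : ℕ) :
    gD p s e cP K = (4 * (cP + 2) * e) * (p.t ^ (-p.d) * s * 8 ^ K) := by
  unfold gD mW H401.Num.Lm
  ring

/-- **The price of the high part of `A`.** -/
theorem hst1 : HSt1 := by
  intro a ha ha1
  refine ⟨1, one_pos, fun e0 he0 he0' => ⟨1, one_pos, fun k8 hk8 hk8' => ⟨1, one_pos,
    fun k3 hk3 hk3' => ?_⟩⟩⟩
  refine ⟨k3 / 8, k3 / 200, k3 / 200, k3 / 8, by positivity, by positivity, by positivity,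
    by positivity, fun c hc hcc d hd hdd Kt e cP L hKt he hcP hL => ?_⟩
  obtain ⟨C, hC, H⟩ := price (pA := 2 * k3 - 8 * c - 3 * d) (pB := -(2 * c + 2 * d))
    (qA := 2 * k3) (qB := 0) (wA := d) (d := d) (θ := k3 / 100)
    (gam := k3 / 8) (del := k3 / 8) (by positivity) (by positivity) hd.le (by nlinarith)
    (by nlinarith) (by nlinarith)
    (CA := (cP + 2) * (8 * (24 ^ 8 * Kt ^ 8 * 64 * e + 12 ^ 4 * Kt ^ 4 * 16 * e)))
    (CB := 5760000 * (cP + 2) * (Kt ^ 2 * e))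
    (cA := 4 * (cP + 2) * e) (by positivity) (by positivity) (by positivity) hcP
  refine ⟨1, le_rfl, C, hC, ?_⟩
  intro t ht ht1 n ez F1 F2 F3 f1 f3 f2 o ho K hKn x ι _ _ s r U g u v hs hr hcls Q1 Q2 Q3 q1 q2 q3
  have hDB : 0 < (4 * (cP + 2) * e) * (t ^ (-d) * s * 8 ^ K) := by positivity
  have hΛ : 0 ≤ t ^ (-d) := (Real.rpow_pos_of_pos ht _).le
  exact H t ht ht1 n ez F2 f2 o ho K hKn x ι s r _ U g u v hs hr hcls.toCls _ _ _ _ _ _ hDB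
    (fun t0 => fam0_mono (famA_hi (p := ⟨a, e0, k8, k3, c, d, Kt, e, cP, L, 1, t⟩) hΛ hs.le
      (H401.Num.th_pos (p := ⟨a, e0, k8, k3, c, d, Kt, e, cP, L, 1, t⟩) ht hs hr) f1.1 (by linarith)
      hcP hcls.toCls f1.2.2.1 q1 hKn t0) le_rfl
      (gH_le (p := ⟨a, e0, k8, k3, c, d, Kt, e, cP, L, 1, t⟩) ht ht1 hs hr (by linarith) hcP
        hk3.le hc hd.le K) (gD_le K).le)
    (fun t0 => natB (a := a) (e0 := e0) (k8 := k8) (k3 := k3) (L := L) (CD := 1) ht ht1 hd.le hcP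
      f3 q3 hKn hs hcls.toCls t0)

/-- **The price of the high part of `b`, first cut.** -/
theorem hst2 : HSt2 := by
  intro a ha ha1
  refine ⟨1, one_pos, fun e0 he0 he0' => ⟨1, one_pos, fun k8 hk8 hk8' => ⟨1, one_pos,
    fun k3 hk3 hk3' => ?_⟩⟩⟩
  refine ⟨k3 / 8, k3 / 200, k3 / 200, k3 / 8, by positivity, by positivity, by positivity,
    by positivity, fun c hc hcc d hd hdd Kt e cP L hKt he hcP hL => ?_⟩
  obtain ⟨C, hC, H⟩ := price (pA := -(2 * c + 2 * d)) (pB := 2 * k3 - 8 * c - 3 * d)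
    (qA := 0) (qB := 2 * k3) (wA := d) (d := d) (θ := k3 / 100)
    (gam := k3 / 8) (del := k3 / 8) (by positivity) le_rfl hd.le (by nlinarith)
    (by nlinarith) (by nlinarith)
    (CA := 1920000 * (cP + 2) * (Kt ^ 2 * e))
    (CB := (cP + 2) * (8 * (24 ^ 8 * Kt ^ 8 * 64 * e + 12 ^ 4 * Kt ^ 4 * 16 * e)))
    (cA := 4 * (cP + 2) * e) (by positivity) (by positivity) (by positivity) hcP
  refine ⟨1, le_rfl, C, hC, ?_⟩
  intro t ht ht1 n ez F1 F2 F3 f1 f3 f2 o ho K hKn x ι _ _ s r U g u v hs hr hcls Q1 Q2 Q3 q1 q2 q3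
  have hDB : 0 < (4 * (cP + 2) * e) * (t ^ (-d) * s * 8 ^ K) := by positivity
  have hΛ : 0 ≤ t ^ (-d) := (Real.rpow_pos_of_pos ht _).le
  exact H t ht ht1 n ez F2 f2 o ho K hKn x ι s r _ U g u v hs hr hcls.toCls _ _ _ _ _ _ hDB
    (fun t0 => lowA (a := a) (e0 := e0) (k8 := k8) (k3 := k3) (L := L) (CD := 1) ht ht1 hd.le hcP
      f1 q1 hKn hs hcls.toCls t0)
    (fun t0 => famK_mono (famB_hi (p := ⟨a, e0, k8, k3, c, d, Kt, e, cP, L, 1, t⟩) hΛ hs.le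
      (H401.Num.th_pos (p := ⟨a, e0, k8, k3, c, d, Kt, e, cP, L, 1, t⟩) ht hs hr) f3.1 (by linarith)
      hcP hcls.toCls f3.2.2.1 q3 hKn t0) le_rfl
      (gH_le (p := ⟨a, e0, k8, k3, c, d, Kt, e, cP, L, 1, t⟩) ht ht1 hs hr (by linarith) hcP
        hk3.le hc hd.le K) (gD_le K).le)

end

end Vale.Agent.P141.H74
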