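import Vale.Agent.P141.H401.CutData
import Vale.Agent.P141.H508.OwnC
import Vale.Agent.P141.H593.HPnum

/-!
# P141, line (A): the price of an unsplit part from the numbers of its three families

* `price` : for class data, `C` the killed slot, `A` and `b` with monomial numbers: the sum of the
  absolute values of the node form is at most `C t^(1+gam) s^(5/4) √ez 8^K r^(-del)`.
-/

namespace Vale.Agent.P141.H74

open Finset Matrix
open Vale.Agent.P141.PL (Pt iv ix cx)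
open Vale.Agent.P141.PL.H315 (Tri)
open Vale.Agent.P141.H48 (US ES BSl Qth)
open Vale.Agent.P141.H958 (PackQ)
open Vale.Agent.P141.H677
open Vale.Agent.P141.H401
open Vale.Agent.P141.H205 (FamK NS_nf3_le)
open Vale.Agent.P141.H971 (Fam0)
open Vale.Agent.P141.H498 (prf)

noncomputable section

open scoped Classical

theorem packQ_mono {N : ℕ} {R S : ℤ} {Q : ℕ → ℤ → ℤ → Prop} {cP cP' : ℝ} (h : PackQ N R S Q cP)
    (hc : cP ≤ cP') : PackQ N R S Q cP' := fun K hK n' m' =>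
  (h K hK n' m').trans (mul_le_mul_of_nonneg_right hc (by positivity))

theorem fam0_mono {N : ℕ} {R S : ℤ} {X : Finset ℤ} {Q : ℤ → ℕ → ℤ → ℤ → Prop}
    {A : ℤ → ℕ → ℤ → ℤ → ℝ} {cP cP' G G' D D' : ℝ} (h : Fam0 N R S X Q A cP G D)
    (hc : cP ≤ cP') (hG : G ≤ G') (hD : D ≤ D') : Fam0 N R S X Q A cP' G' D' where
  path := h.path
  zero := h.zero
  pack := fun i hi => packQ_mono (h.pack i hi) hc
  own := h.own.trans hG
  pow := h.pow.trans hD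

theorem famK_mono {κ : Type*} [Fintype κ] {N : ℕ} {R S : ℤ} {X : Finset ℤ}
    {Q : ℤ → ℕ → ℤ → ℤ → Prop} {F : ℤ → ℕ → ℤ → ℤ → κ → ℝ} {cP cP' G G' D D' : ℝ}
    (h : FamK N R S X Q F cP G D) (hc : cP ≤ cP') (hG : G ≤ G') (hD : D ≤ D') :
    FamK N R S X Q F cP' G' D' where
  path := h.path
  zero := h.zero
  pack := fun i hi => packQ_mono (h.pack i hi) hc
  own := h.own.trans hG
  pow := h.pow.trans hD

/-- `s √s = s ^ (3/2)` -/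
theorem s_sqrt {s : ℝ} (hs : 0 < s) : s * √s = s ^ (3 / 2 : ℝ) := by
  rw [Real.sqrt_eq_rpow]
  nth_rw 1 [← Real.rpow_one s]
  rw [← Real.rpow_add hs]
  norm_num

/-- `(t ^ (-d)) ^ 2 = t ^ (-(2 d))` -/
theorem pow_sq {t : ℝ} (ht : 0 < t) (d : ℝ) : (t ^ (-d)) ^ 2 = t ^ (-(2 * d)) := by
  rw [← Real.rpow_natCast (t ^ (-d)), ← Real.rpow_mul ht.le]
  congr 1
  push_cast
  ring

/-- **The price of an unsplit part.** -/
theorem price {pA pB qA qB wA d θ gam del : ℝ} (hθ : 0 < θ) (hqA : 0 ≤ qA) (hd0 : 0 ≤ d)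
    (hw : 0 ≤ 2 * wA + 2 * d + 2 + pA - 2 * d)
    (hg : gam + (2 * wA + 2 * d + 2 + pA - 2 * d) * θ + d / 2 ≤ (pA + pB) / 4)
    (hdel : del + qA * θ ≤ (qA + qB) / 4) {CA CB cA : ℝ} (hCA : 0 < CA) (hCB : 0 < CB)
    (hcA : 0 < cA) {cP : ℝ} (hcP : 0 ≤ cP) :
    ∃ C : ℝ, 0 ≤ C ∧ ∀ t : ℝ, 0 < t → t ≤ 1 → ∀ (n : ℕ) (ez : ℝ) (F2 : ℕ → Pt → ℝ),
      ES n ez cP F2 → ∀ o : ℤ, o = 1 ∨ o = -1 → ∀ K ≤ n, ∀ (x : Pt) (ι : Type) [Fintype ι]
      (s r P : ℝ) (U : Tri) (g : ℤ → ℤ → ℝ) (u v : ℤ → ℤ → ι → ℝ), 0 < s → 1 ≤ r →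
      H305.Cls K x s r P U g u v → ∀ (Al : ℕ → Pt → Prop) (A : ℤ → ℕ → ℤ → ℤ → ℝ)
      (b : ℤ → ℕ → ℤ → ℤ → ι → ℝ) (QA QB : ℤ → ℕ → ℤ → ℤ → Prop) (DB : ℝ), 0 < DB →
      (∀ t0 : ℤ, Fam0 K (cx K x).2.2 (cx K x).2.1 (iv K t0) QA A (cP + 2)
        (CA * (t ^ (2 + pA) * s ^ (3 / 2 : ℝ) * r ^ (-qA) * 8 ^ K))
        (cA * (t ^ (-wA) * s * 8 ^ K))) →
      (∀ t0 : ℤ, FamK K (cx K x).1 (cx K x).2.1 (iv K t0) QB b (cP + 2)
        (CB * (t ^ (2 + pB) * s ^ (3 / 2 : ℝ) * r ^ (-qB) * 8 ^ K)) DB) →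
      NS o Al K x (fun x0 k m => |nf3 (A x0 k) (b x0 k)
        (fC v (kF (t ^ (-d)) U.2.1 K F2) x0 k) k m|) ≤
        C * (t ^ (1 + gam) * s ^ (5 / 4 : ℝ) * √ez * 8 ^ K) * r ^ (-del) := by
  obtain ⟨C, hC, h⟩ := H593.hp_price (wC := d) (wG := 2 * d) hθ hqA hw hg hdel hCA hCB hcA
    (cC := 4 * (cP + 2)) (cG := 8 * (cP + 2)) (by positivity) (by positivity) (cP := cP + 2)
    (by positivity)
  refine ⟨C, hC, ?_⟩
  intro t ht ht1 n ez F2 h2 o ho K hKn x ι _ s r P U g u v hs hr hcls Al A b QA QB DB hDB hA hB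
  have key : ∀ ez', ez < ez' → NS o Al K x (fun x0 k m => |nf3 (A x0 k) (b x0 k)
      (fC v (kF (t ^ (-d)) U.2.1 K F2) x0 k) k m|) ≤
      (C * (t ^ (1 + gam) * s ^ (5 / 4 : ℝ) * 8 ^ K) * r ^ (-del)) * √ez' := by
    intro ez' hez'
    have h2' := H593.ES_mono h2 hez'.le
    have hez0 : 0 < ez' := h2.1.trans_lt hez'
    have hΛ : 1 ≤ t ^ (-d) := Real.one_le_rpow_of_pos_of_le_one_of_nonpos ht ht1 (by linarith)
    obtain ⟨Q, hQ⟩ := H508.famK_Cls hΛ hcP h2' hKn hcls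
    have hr0 : 0 < r := by linarith
    have hG0 : (0 : ℝ) < 8 * (cP + 2) * (ez' ^ 2 * t ^ (-(2 * d)) * s ^ (3 / 2 : ℝ) * 8 ^ K) := by
      positivity
    have h1 := NS_nf3_le (x := x) (Al := Al) ho (A := A) (b := b)
      (C := fC v (kF (t ^ (-d)) U.2.1 K F2)) (cP := cP + 2)
      (GA := CA * (t ^ (2 + pA) * s ^ (3 / 2 : ℝ) * r ^ (-qA) * 8 ^ K))
      (GB := CB * (t ^ (2 + pB) * s ^ (3 / 2 : ℝ) * r ^ (-qB) * 8 ^ K))
      (GC := 8 * (cP + 2) * (ez' ^ 2 * t ^ (-(2 * d)) * s ^ (3 / 2 : ℝ) * 8 ^ K))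
      (DA := cA * (t ^ (-wA) * s * 8 ^ K)) (DB := DB)
      (DC := 4 * (cP + 2) * (ez' * t ^ (-d) * s * 8 ^ K))
      (by linarith) (by positivity) (by positivity) hG0 (by positivity) hDB (by positivity)
      (fun t0 _ => hA t0) (fun t0 _ => hB t0)
      (fun t0 _ => famK_mono (hQ t0) le_rfl (le_of_eq ?_) (le_of_eq ?_))
    · refine h1.trans ((h t ht ht1 s r ez' hs hr hez0 K DB hDB).trans (le_of_eq ?_))
      ring
    · rw [pow_sq ht, s_sqrt hs]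
      ring
    · ring
  refine (H593.lim_ez key).trans (le_of_eq ?_)
  ring

end

end Vale.Agent.P141.H74
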