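import Vale.Agent.P141.H677.Glue
import Vale.Agent.P141.H401.CutData

/-!
# P141, line (A), increasing part: sums over the lags

`lag_sum` : numbers of every lag `r`, each summed over the roots of `x₀` at most `B`, summed with the
weights `(3 / 4) ^ r`; `lag_sum3`, `lag_tot` : three families of numbers and a further one.
-/

namespace Vale.Agent.P141.H74.Lag

open Finset
open Vale.Agent.P141.PL (Pt iv)
open Vale.Agent.P141.H677 (rt)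

noncomputable section

/-- the geometric weights -/
theorem geo (N : ℕ) : ∑ r ∈ range (N + 1), (3 / 4 : ℝ) ^ r ≤ 4 := by
  have h : ∀ n : ℕ, ∑ r ∈ range n, (3 / 4 : ℝ) ^ r = 4 - 4 * (3 / 4 : ℝ) ^ n := by
    intro n
    induction n with
    | zero => simp
    | succ n ih =>
      rw [sum_range_succ, ih, pow_succ]
      ring
  rw [h]
  have : (0 : ℝ) ≤ (3 / 4 : ℝ) ^ (N + 1) := by positivity
  linarith

/-- the total of the lags -/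
def wt (N : ℕ) (f : ℕ → ℝ) : ℝ := ∑ r ∈ range (N + 1), (3 / 4 : ℝ) ^ r * f r

theorem wt_mono {N : ℕ} {f g : ℕ → ℝ} (h : ∀ r ≤ N, f r ≤ g r) : wt N f ≤ wt N g :=
  sum_le_sum fun r hr => mul_le_mul_of_nonneg_left
    (h r (Nat.lt_succ_iff.1 (mem_range.1 hr))) (by positivity)

theorem wt_add (N : ℕ) (f g : ℕ → ℝ) : wt N (fun r => f r + g r) = wt N f + wt N g := by
  unfold wt
  rw [← sum_add_distrib]
  exact sum_congr rfl fun r _ => by ring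

theorem wt_mul (N : ℕ) (a : ℝ) (f : ℕ → ℝ) : wt N (fun r => a * f r) = a * wt N f := by
  unfold wt
  rw [mul_sum]
  exact sum_congr rfl fun r _ => by ring

theorem wt_nonneg {N : ℕ} {f : ℕ → ℝ} (h : ∀ r, 0 ≤ f r) : 0 ≤ wt N f :=
  sum_nonneg fun r _ => mul_nonneg (by positivity) (h r)

theorem wt_le {N : ℕ} {f : ℕ → ℝ} {B : ℝ} (hB : 0 ≤ B) (h : ∀ r ≤ N, f r ≤ B) : wt N f ≤ 4 * B := by
  refine (wt_mono h).trans ?_
  unfold wt
  rw [← sum_mul]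
  exact mul_le_mul_of_nonneg_right (geo N) hB

/-- the lag `0` alone -/
theorem le_wt {N : ℕ} {f : ℕ → ℝ} (h : ∀ r, 0 ≤ f r) : f 0 ≤ wt N f := by
  unfold wt
  have h1 := single_le_sum (f := fun r => (3 / 4 : ℝ) ^ r * f r)
    (fun r _ => mul_nonneg (by positivity) (h r)) (mem_range.2 (Nat.succ_pos N))
  simpa using h1

/-- **Every lag summed over the roots of `x₀`.** -/
theorem lag_sum {K N : ℕ} {M : Pt} {f : ℕ → ℤ → ℝ} {B : ℝ} (hB : 0 ≤ B)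
    (h : ∀ r ≤ N, ∑ t ∈ rt M, ∑ x0 ∈ iv K t, f r x0 ≤ B) :
    ∑ t ∈ rt M, ∑ x0 ∈ iv K t, wt N (fun r => f r x0) ≤ 4 * B := by
  have e : ∑ t ∈ rt M, ∑ x0 ∈ iv K t, wt N (fun r => f r x0) =
      wt N (fun r => ∑ t ∈ rt M, ∑ x0 ∈ iv K t, f r x0) := by
    unfold wt
    have e1 : ∀ t ∈ rt M, ∑ x0 ∈ iv K t, ∑ r ∈ range (N + 1), (3 / 4 : ℝ) ^ r * f r x0 =
        ∑ r ∈ range (N + 1), ∑ x0 ∈ iv K t, (3 / 4 : ℝ) ^ r * f r x0 := fun t _ => sum_comm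
    rw [sum_congr rfl e1, sum_comm]
    refine sum_congr rfl fun r _ => ?_
    simp only [mul_sum]
  rw [e]
  exact wt_le hB h

/-- three families of numbers and a further one -/
theorem lag_tot {K N : ℕ} {M : Pt} {f g h : ℕ → ℤ → ℝ} {k : ℤ → ℝ} {B : ℝ} (hB : 0 ≤ B)
    (hf : ∀ r ≤ N, ∑ t ∈ rt M, ∑ x0 ∈ iv K t, f r x0 ≤ B)
    (hg : ∀ r ≤ N, ∑ t ∈ rt M, ∑ x0 ∈ iv K t, g r x0 ≤ B)
    (hh : ∀ r ≤ N, ∑ t ∈ rt M, ∑ x0 ∈ iv K t, h r x0 ≤ B)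
    (hk : ∑ t ∈ rt M, ∑ x0 ∈ iv K t, k x0 ≤ B) :
    ∑ t ∈ rt M, ∑ x0 ∈ iv K t, (wt N (fun r => f r x0 + g r x0 + h r x0) + k x0) ≤ 13 * B := by
  have e : ∑ t ∈ rt M, ∑ x0 ∈ iv K t, (wt N (fun r => f r x0 + g r x0 + h r x0) + k x0) =
      ∑ t ∈ rt M, ∑ x0 ∈ iv K t, wt N (fun r => f r x0) +
      ∑ t ∈ rt M, ∑ x0 ∈ iv K t, wt N (fun r => g r x0) +
      ∑ t ∈ rt M, ∑ x0 ∈ iv K t, wt N (fun r => h r x0) +
      ∑ t ∈ rt M, ∑ x0 ∈ iv K t, k x0 := by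
    simp only [wt_add, sum_add_distrib]
  rw [e]
  have h1 := lag_sum hB hf
  have h2 := lag_sum hB hg
  have h3 := lag_sum hB hh
  linarith

end

end Vale.Agent.P141.H74.Lag
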